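import Mathlib

/-!
# Partial functions: total extension, points on cycles, cutting the cycles
-/

namespace Vale.Agent.KK.PF

/-- The total extension of a partial function: a point without a value is sent to itself. -/
def tot {V : Type*} (p : V → Option V) : V → V := fun v => (p v).getD v

/-- `v` lies on a cycle of the partial function `p`. -/
def PerPt {V : Type*} (p : V → Option V) (v : V) : Prop :=
  p v ≠ none ∧ v ∈ Function.periodicPts (tot p)

open Classical in
/-- The partial function `p` with the value removed at every point on a cycle. -/
noncomputable def cutPer {V : Type*} (p : V → Option V) : V → Option V :=
  fun v => if PerPt p v then none else p v

end Vale.Agent.KK.PF
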