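import Vale.Agent.KK.PP.ForestQ1
import Vale.Agent.Lib.P064.pf.Split
import Vale.Agent.Lib.P064.pf.Orient
import Vale.Agent.Lib.P064.pf.CyclicPart
import Vale.Agent.Lib.P064.pf.TreePart
import Vale.Agent.Lib.P064.pf.Hall

/-!
# Hosts that are graphs of partial functions (every component has at most one cycle)
-/

namespace Vale.Agent.KK.PF

open Finset SimpleGraph
open Vale.Agent.KK Vale.Agent.Lib.P064 Vale.Agent.Lib.P064.PF

/-- The number of injective morphisms from a pattern partial function into the host partial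
function. -/
theorem mor_count_le {n : ℕ} {H : SimpleGraph (Fin n)} {q : ℝ} (hq : 0 ≤ q)
    (h : SubgraphsExpected n H q) (p : Fin n → Option (Fin n))
    (hpH : ∀ x y, p x = some y → H.Adj x y) (hp2 : ∀ x y, p x = some y → p y ≠ some x)
    {W : Type} [Fintype W] [DecidableEq W] (o : W → Option W) :
    (Nat.card {φ : W → Fin n // Function.Injective φ ∧
        ∀ x y, o x = some y → p (φ x) = some (φ y)} : ℝ) ≤
      (n : ℝ) ^ Fintype.card W *
        (200000000 * q) ^ (univ.filter (fun x => o x ≠ none)).card := by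
  classical
  obtain ⟨S, ot, oc, e, he, hcard, hle⟩ := mor_split o p
  have ht := tree_part hq h p hpH ot e he
  have hc := cyclic_part hq h p hpH hp2 oc
  set et := (univ.filter (fun x => ot x ≠ none)).card with het
  have hn0 : (0 : ℝ) ≤ n := Nat.cast_nonneg n
  have hmin : min 1 (100000000 * q) ≤ 100000000 * q := min_le_right _ _
  have hmin0 : 0 ≤ min 1 (100000000 * q) := le_min zero_le_one (by positivity)
  have hdesc : (n.descFactorial (Fintype.card {x // x ∉ S}) : ℝ) ≤
      (n : ℝ) ^ Fintype.card {x // x ∉ S} := by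
    exact_mod_cast Nat.descFactorial_le_pow n _
  have ht' : (Nat.card {φ : {x // x ∉ S} → Fin n // Function.Injective φ ∧
      ∀ x y, ot x = some y → p (φ x) = some (φ y)} : ℝ) ≤
      (n : ℝ) ^ Fintype.card {x // x ∉ S} * (200000000 * q) ^ et := by
    calc _ ≤ 2 ^ et * (n.descFactorial (Fintype.card {x // x ∉ S}) : ℝ) *
          (min 1 (100000000 * q)) ^ et := ht
      _ ≤ 2 ^ et * (n : ℝ) ^ Fintype.card {x // x ∉ S} * (100000000 * q) ^ et := by
          gcongr
      _ = (n : ℝ) ^ Fintype.card {x // x ∉ S} * (200000000 * q) ^ et := by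
          have e1 : (200000000 * q) ^ et = 2 ^ et * (100000000 * q) ^ et := by
            rw [← mul_pow]
            congr 1
            ring
          rw [e1]
          ring
  have hc' : (Nat.card {φ : {x // x ∈ S} → Fin n // Function.Injective φ ∧
      ∀ x, p (φ x) = some (φ (oc x))} : ℝ) ≤
      (n : ℝ) ^ Fintype.card {x // x ∈ S} * (200000000 * q) ^ Fintype.card {x // x ∈ S} := by
    calc _ ≤ (180000 * (n * q)) ^ Fintype.card {x // x ∈ S} := hc
      _ = (n : ℝ) ^ Fintype.card {x // x ∈ S} * (180000 * q) ^ Fintype.card {x // x ∈ S} := by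
          rw [← mul_pow]
          congr 1
          ring
      _ ≤ (n : ℝ) ^ Fintype.card {x // x ∈ S} *
            (200000000 * q) ^ Fintype.card {x // x ∈ S} := by
          gcongr
          norm_num
  have hW : Fintype.card {x // x ∉ S} + Fintype.card {x // x ∈ S} = Fintype.card W := by
    have h1 : Fintype.card {x // x ∉ S} = Fintype.card W - Fintype.card {x // x ∈ S} :=
      Fintype.card_subtype_compl (fun x => x ∈ S)
    have h2 : Fintype.card {x // x ∈ S} ≤ Fintype.card W := Fintype.card_subtype_le _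
    omega
  have hS : Fintype.card {x // x ∈ S} = S.card := Fintype.card_coe S
  have hle' : (Nat.card {φ : W → Fin n // Function.Injective φ ∧
      ∀ x y, o x = some y → p (φ x) = some (φ y)} : ℝ) ≤
      (Nat.card {φ : {x // x ∉ S} → Fin n // Function.Injective φ ∧
            ∀ x y, ot x = some y → p (φ x) = some (φ y)} : ℝ) *
          (Nat.card {φ : {x // x ∈ S} → Fin n // Function.Injective φ ∧
            ∀ x, p (φ x) = some (φ (oc x))} : ℝ) := by
    exact_mod_cast hle
  calc _ ≤ _ := hle'
    _ ≤ ((n : ℝ) ^ Fintype.card {x // x ∉ S} * (200000000 * q) ^ et) *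
          ((n : ℝ) ^ Fintype.card {x // x ∈ S} *
            (200000000 * q) ^ Fintype.card {x // x ∈ S}) := by
        gcongr
    _ = (n : ℝ) ^ Fintype.card W *
          (200000000 * q) ^ (univ.filter (fun x => o x ≠ none)).card := by
        rw [hcard, ← hW, hS, pow_add, pow_add]
        ring

/-- The labelled inequality for hosts that are graphs of partial functions, patterns without
isolated vertices. -/
theorem pf_labelled_main {n : ℕ} {H : SimpleGraph (Fin n)} {q : ℝ}
    (p : Fin n → Option (Fin n)) (hH : ∀ u v, H.Adj u v ↔ (p u = some v ∨ p v = some u))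
    (hp2 : ∀ u v, p u = some v → p v ≠ some u)
    (hq0 : 0 ≤ q) (h : SubgraphsExpected n H q) (W : Type) [Fintype W]
    (F : SimpleGraph W) (hiso : ∀ w, ∃ w', F.Adj w w') :
    (H.labelledCopyCount F : ℝ) ≤
      (n.descFactorial (Fintype.card W) : ℝ) * (6000000000 * q) ^ F.edgeSet.ncard := by
  classical
  by_cases hw : Fintype.card W ≤ n
  swap
  · rw [labelled_eq_zero_of_card_lt H F (not_le.1 hw)]
    simp only [Nat.cast_zero]
    positivity
  have hpH : ∀ x y, p x = some y → H.Adj x y := fun x y hxy => (hH x y).2 (Or.inl hxy)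
  rw [labelledCopyCount_eq_natCard]
  obtain ⟨O, hOcard, hOe, hOsum⟩ := copy_le_sum_orient H p hH hp2 F
  set e := F.edgeSet.ncard with he
  have hcard2 := card_le_two_mul_edges F hiso
  have hconv := pow_le_exp_pow_mul_descFactorial n (Fintype.card W) hw
  have hexp1 : 1 ≤ Real.exp 1 := Real.one_le_exp (by norm_num)
  have hD0 : (0 : ℝ) ≤ (n.descFactorial (Fintype.card W) : ℝ) := Nat.cast_nonneg _
  have h1 : (Nat.card (F.Copy H) : ℝ) ≤ ∑ o ∈ O,
      (Nat.card {φ : W → Fin n // Function.Injective φ ∧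
        ∀ x y, o x = some y → p (φ x) = some (φ y)} : ℝ) := by
    exact_mod_cast hOsum
  have h2 : ∀ o ∈ O, (Nat.card {φ : W → Fin n // Function.Injective φ ∧
        ∀ x y, o x = some y → p (φ x) = some (φ y)} : ℝ) ≤
      (n : ℝ) ^ Fintype.card W * (200000000 * q) ^ e := by
    intro o ho
    have := mor_count_le hq0 h p hpH hp2 o
    rwa [hOe o ho] at this
  have hexp2 : Real.exp 1 ^ 2 ≤ 7.5 := by
    have h1 : Real.exp 1 < 2.7182818286 := Real.exp_one_lt_d9
    have h0 : (0 : ℝ) < Real.exp 1 := Real.exp_pos 1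
    have h2 : Real.exp 1 ^ 2 < 2.7182818286 ^ 2 := by gcongr
    norm_num at h2 ⊢
    linarith
  calc (Nat.card (F.Copy H) : ℝ) ≤ ∑ o ∈ O, (Nat.card {φ : W → Fin n // Function.Injective φ ∧
        ∀ x y, o x = some y → p (φ x) = some (φ y)} : ℝ) := h1
    _ ≤ ∑ _o ∈ O, (n : ℝ) ^ Fintype.card W * (200000000 * q) ^ e := Finset.sum_le_sum h2
    _ = (O.card : ℝ) * ((n : ℝ) ^ Fintype.card W * (200000000 * q) ^ e) := by
        rw [Finset.sum_const, nsmul_eq_mul]
    _ ≤ (4 : ℝ) ^ e * ((n : ℝ) ^ Fintype.card W * (200000000 * q) ^ e) := by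
        gcongr
        exact_mod_cast hOcard
    _ ≤ (4 : ℝ) ^ e * ((Real.exp 1 ^ (Fintype.card W) *
          (n.descFactorial (Fintype.card W) : ℝ)) * (200000000 * q) ^ e) := by
        gcongr
    _ ≤ (4 : ℝ) ^ e * ((Real.exp 1 ^ (2 * e) *
          (n.descFactorial (Fintype.card W) : ℝ)) * (200000000 * q) ^ e) := by
        gcongr
    _ = (n.descFactorial (Fintype.card W) : ℝ) * (4 * Real.exp 1 ^ 2 * (200000000 * q)) ^ e := by
        rw [pow_mul, mul_pow, mul_pow]
        ring
    _ ≤ (n.descFactorial (Fintype.card W) : ℝ) * (6000000000 * q) ^ e := by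
        have hb : 4 * Real.exp 1 ^ 2 * (200000000 * q) ≤ 6000000000 * q := by nlinarith
        have hb0 : 0 ≤ 4 * Real.exp 1 ^ 2 * (200000000 * q) := by positivity
        exact mul_le_mul_of_nonneg_left (pow_le_pow_left₀ hb0 hb e) hD0

end Vale.Agent.KK.PF
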