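import Vale.Agent.KK.PF.Main

/-!
# The threshold for containing a graph whose components have at most one cycle
-/

namespace Vale.Agent.KK.PF

open SimpleGraph Finset
open Vale.Agent.KK Vale.Agent.KK.PP Vale.Agent.Lib.P064 Vale.Agent.Lib.P064.PF

/-- The labelled inequality for hosts that are graphs of partial functions, all patterns,
density capped at one. -/
theorem pf_labelled_le_min {n : ℕ} {H : SimpleGraph (Fin n)} {q : ℝ}
    (p : Fin n → Option (Fin n)) (hH : ∀ u v, H.Adj u v ↔ (p u = some v ∨ p v = some u))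
    (hp2 : ∀ u v, p u = some v → p v ≠ some u)
    (hq0 : 0 ≤ q) (h : SubgraphsExpected n H q) (W : Type) [Fintype W] (F : SimpleGraph W) :
    (H.labelledCopyCount F : ℝ) ≤
      (n.descFactorial (Fintype.card W) : ℝ) * (min 1 (6000000000 * q)) ^ F.edgeSet.ncard := by
  classical
  by_cases hq : 6000000000 * q ≤ 1
  · rw [min_eq_right hq]
    have key := labelled_of_support H F ((6000000000 * q) ^ F.edgeSet.ncard) ?_
    · rw [Fintype.card_fin] at key; exact key
    rw [Fintype.card_fin, ← ncard_edgeSet_induce_support F]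
    exact pf_labelled_main p hH hp2 hq0 h F.support (F.induce F.support)
      (induce_support_no_isolated F)
  · rw [not_le] at hq
    rw [min_eq_left hq.le, one_pow, mul_one]
    have h1 := labelled_le_top H F
    rw [labelledCopyCount_top, Fintype.card_fin] at h1
    exact_mod_cast h1

/-- From the labelled copy-count inequality at density `L * (2 p)` to containment: if `p` is
admissible for the expectation threshold of `H`, then `G(n,p')` contains `H` with probability
at least `1/2` for some `p' ≤ 139 L p log n`. -/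
theorem contain_of_labelled {n : ℕ} (hn : 2 ≤ n) (H : SimpleGraph (Fin n)) (L : ℝ) (hL : 1 ≤ L)
    (p : ℝ) (hp0 : 0 ≤ p)
    (hp : ∀ H' : H.Subgraph, (1 : ℝ) / 2 ≤
      ((⊤ : SimpleGraph (Fin n)).copyCount H'.coe : ℝ) * p ^ H'.edgeSet.ncard)
    (hlab : ∀ F : SimpleGraph (Fin n), (H.labelledCopyCount F : ℝ) ≤
      (n.factorial : ℝ) * (min 1 (L * (2 * p))) ^ F.edgeSet.ncard) :
    ∃ p' : ℝ, 0 ≤ p' ∧ p' ≤ 1 ∧ (1 : ℝ) / 2 ≤ containProb H p' ∧
      p' ≤ 139 * L * p * Real.log n := by
  classical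
  have hl2 : (0.6931471803 : ℝ) < Real.log 2 := Real.log_two_gt_d9
  have hnR : (2 : ℝ) ≤ n := by exact_mod_cast hn
  have hlogn : Real.log 2 ≤ Real.log n := Real.log_le_log (by norm_num) hnR
  have hlog0 : 0 ≤ Real.log n := by linarith
  have hL0 : 0 < L := by linarith
  rcases Nat.eq_zero_or_pos H.edgeSet.ncard with he0 | hepos
  · refine ⟨0, le_rfl, zero_le_one, ?_, ?_⟩
    · have := containProb_zero H he0
      linarith
    · positivity
  have hppos : 0 < p := by
    rcases hp0.lt_or_eq with h | h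
    · exact h
    · exfalso
      have h1 := hp (⊤ : H.Subgraph)
      rw [Subgraph.edgeSet_top, ← h, zero_pow hepos.ne', mul_zero] at h1
      linarith
  set p₀ : ℝ := min 1 (L * (2 * p)) with hp₀
  have hp₀pos : 0 < p₀ := lt_min zero_lt_one (by positivity)
  have hp₀le : p₀ ≤ L * (2 * p) := min_le_right _ _
  have hLp0 : 0 ≤ L * p := by positivity
  by_cases h16 : 16 * p₀ ≤ 1
  · set m := H.edgeSet.ncard with hm
    set r := Nat.log 2 m + 1 with hr
    have hmr : m < 2 ^ r := Nat.lt_pow_succ_log_self (by norm_num) m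
    have hb : ∀ S ∈ copyFamily H, S.card ≤ m := fun S hS => (copyFamily_card H S hS).le
    have hpp := park_pham (copyFamily H) m r hmr hb p₀ hp₀pos h16
      (copyFamily_cover H p₀ hp₀pos.le hlab)
    rw [← containProb_eq] at hpp
    have hx0 : 0 ≤ 1 - 16 * p₀ := by linarith
    have hx1 : 1 - 16 * p₀ ≤ 1 := by linarith
    have hpow0 : 0 ≤ (1 - 16 * p₀) ^ r := pow_nonneg hx0 r
    have hpow1 : (1 - 16 * p₀) ^ r ≤ 1 := pow_le_one₀ hx0 hx1
    have hbern : 1 + (r : ℝ) * (-(16 * p₀)) ≤ (1 + -(16 * p₀)) ^ r :=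
      one_add_mul_le_pow (by linarith) r
    have hbern' : 1 - (1 - 16 * p₀) ^ r ≤ 16 * r * p₀ := by
      have e : (1 + -(16 * p₀)) = 1 - 16 * p₀ := by ring
      rw [e] at hbern
      linarith
    have hm_le : m ≤ n ^ 2 := by
      obtain ⟨S, hS⟩ := copyFamily_nonempty H
      have h1 : S.card = m := copyFamily_card H S hS
      have h2 : S.card ≤ Fintype.card (Slot n) := card_le_univ S
      have h3 : Fintype.card (Slot n) = n.choose 2 := by
        have := Sym2.card_subtype_not_diag (α := Fin n)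
        rw [Fintype.card_fin] at this
        exact this
      have h4 : n.choose 2 ≤ n ^ 2 := Nat.choose_le_pow n 2
      omega
    have hrb := log_round_bound hn m hm_le
    refine ⟨1 - (1 - 16 * p₀) ^ r, by linarith, by linarith, hpp, ?_⟩
    calc 1 - (1 - 16 * p₀) ^ r ≤ 16 * r * p₀ := hbern'
      _ ≤ 16 * (4.33 * Real.log n) * (L * (2 * p)) := by
          gcongr
      _ ≤ 139 * L * p * Real.log n := by
          nlinarith [mul_nonneg hLp0 hlog0]
  · rw [not_le] at h16
    refine ⟨1, zero_le_one, le_rfl, ?_, ?_⟩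
    · have := containProb_one H
      linarith
    · have h1 : 1 < 16 * (L * (2 * p)) := by linarith
      nlinarith [mul_nonneg hLp0 (by linarith : (0 : ℝ) ≤ Real.log n - Real.log 2)]

/-- **Q1 for graphs whose components have at most one cycle.** If every set `S` of vertices of
`H` spans at most `|S|` edges, then the threshold for containing `H` is at most
`10^12 * log n` times the expectation threshold. -/
theorem pseudoforest_threshold_le {n : ℕ} (hn : 2 ≤ n) (H : SimpleGraph (Fin n))
    (hH : ∀ S : Finset (Fin n), {e ∈ H.edgeSet | ∀ v ∈ e, v ∈ S}.ncard ≤ S.card) :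
    sInf {p : ℝ | 0 ≤ p ∧ p ≤ 1 ∧ (1 : ℝ) / 2 ≤ ∑ G : SimpleGraph (Fin n),
        Set.indicator {G | H ⊑ G}
          (fun G => p ^ G.edgeSet.ncard * (1 - p) ^ (n.choose 2 - G.edgeSet.ncard)) G} ≤
      1000000000000 * sInf {p : ℝ | 0 ≤ p ∧ p ≤ 1 ∧ ∀ H' : H.Subgraph,
        (1 : ℝ) / 2 ≤
          ((⊤ : SimpleGraph (Fin n)).copyCount H'.coe : ℝ) * p ^ H'.edgeSet.ncard} *
        Real.log n := by
  classical
  obtain ⟨par, hpar, hpar2⟩ := exists_out_orientation H hH
  set Sc : Set ℝ := {p : ℝ | 0 ≤ p ∧ p ≤ 1 ∧ (1 : ℝ) / 2 ≤ ∑ G : SimpleGraph (Fin n),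
        Set.indicator {G | H ⊑ G}
          (fun G => p ^ G.edgeSet.ncard * (1 - p) ^ (n.choose 2 - G.edgeSet.ncard)) G} with hSc
  set SE : Set ℝ := {p : ℝ | 0 ≤ p ∧ p ≤ 1 ∧ ∀ H' : H.Subgraph,
        (1 : ℝ) / 2 ≤
          ((⊤ : SimpleGraph (Fin n)).copyCount H'.coe : ℝ) * p ^ H'.edgeSet.ncard} with hSE
  have hl2 : (0.6931471803 : ℝ) < Real.log 2 := Real.log_two_gt_d9
  have hnR : (2 : ℝ) ≤ n := by exact_mod_cast hn
  have hlogn : Real.log 2 ≤ Real.log n := Real.log_le_log (by norm_num) hnR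
  have hlogpos : 0 < Real.log n := by linarith
  have hbddc : BddBelow Sc := ⟨0, fun p hp => hp.1⟩
  have hneE : SE.Nonempty := by
    refine ⟨1, zero_le_one, le_rfl, fun H' => ?_⟩
    have h1 : (1 : ℝ) ≤ ((⊤ : SimpleGraph (Fin n)).copyCount H'.coe : ℝ) := by
      exact_mod_cast one_le_copyCount_top_coe H'
    rw [one_pow, mul_one]
    linarith
  have h1 : ∀ p ∈ SE, sInf Sc / (1000000000000 * Real.log n) ≤ p := by
    intro p hp
    have hyp := subgraphsExpected_two_mul H p hp.1 hp.2.2
    have hlab : ∀ F : SimpleGraph (Fin n), (H.labelledCopyCount F : ℝ) ≤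
        (n.factorial : ℝ) * (min 1 (6000000000 * (2 * p))) ^ F.edgeSet.ncard := by
      intro F
      have := pf_labelled_le_min par hpar hpar2 (by linarith [hp.1]) hyp (Fin n) F
      rwa [Fintype.card_fin, Nat.descFactorial_self] at this
    obtain ⟨p', hp'0, hp'1, hp'c, hp'le⟩ :=
      contain_of_labelled hn H 6000000000 (by norm_num) p hp.1 hp.2.2 hlab
    have hmem : p' ∈ Sc := ⟨hp'0, hp'1, hp'c⟩
    have h2 := csInf_le hbddc hmem
    rw [div_le_iff₀ (by positivity)]
    calc sInf Sc ≤ p' := h2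
      _ ≤ 139 * 6000000000 * p * Real.log n := hp'le
      _ ≤ p * (1000000000000 * Real.log n) := by
          nlinarith [mul_nonneg hp.1 hlogpos.le]
  have h2 := le_csInf hneE h1
  rw [div_le_iff₀ (by positivity)] at h2
  calc sInf Sc ≤ sInf SE * (1000000000000 * Real.log n) := h2
    _ = 1000000000000 * sInf SE * Real.log n := by ring

end Vale.Agent.KK.PF
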